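import Mathlib
import Vale.Agent.P307.Copies2
import Vale.Agent.P307.Mods.Uniform

/-!
P307: Shelah's eventual categoricity conjecture for abstract elementary classes of relational
structures closed under disjoint unions of copies, and for abstract elementary classes of modules
closed under direct powers. In ZFC, no amalgamation or tameness assumed.
-/

namespace Vale.Agent.Results.P307.ClosedSums

open Cardinal Vale.Agent.P307

universe u

theorem result :
    (∀ (L : FirstOrder.Language.{u, u}) [L.IsRelational] [IsEmpty (L.Relations 0)] (K : AEC L),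
      K.ClosedCopies → ∀ κ : Cardinal.{u}, K.LS < κ → K.Categorical κ →
      ∀ κ' : Cardinal.{u}, K.LS < κ' → K.Categorical κ') ∧
    (∀ ρ : Cardinal.{u}, ∃ μ : Cardinal.{u}, 2 ^ ρ < μ ∧ ∀ (R : Type u) [Ring R] (K : ModAEC R),
      K.LS ≤ ρ → K.ClosedPow → ∀ κ : Cardinal.{u}, μ ≤ κ → K.Categorical κ →
      ∀ κ' : Cardinal.{u}, 2 ^ ρ < κ' → K.Categorical κ') ∧
    (∀ (R : Type u) [Ring R] (K : ModAEC R), K.ClosedPow → ∀ κ κ' : Cardinal.{u},
      2 ^ K.LS < κ' → κ' ≤ κ → K.Categorical κ → K.Categorical κ') :=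
  ⟨fun _ _ _ K hK κ hκ h κ' hκ' => closedCopies2 K hK κ κ' hκ hκ' h,
    closedPow_uniform,
    fun R _ K hK κ κ' h1 h2 h => closedPow_downward R K.LS K le_rfl hK κ κ' h1 h2 h⟩

end Vale.Agent.Results.P307.ClosedSums
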