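import Mathlib
import Vale.Agent.P307.DefsT
import Vale.Agent.P307.Un
import Vale.Agent.P307.Un2
import Vale.Agent.P307.Mods.Uniform
import Vale.Agent.P307.Mods.ClosedSum
import Vale.Agent.P307.Mods.Kap
import Vale.Agent.P307.Mods.Semi
import Vale.Agent.P307.Mods.Inj
import Vale.Agent.P307.Mods.Bdd

/-!
P307: Shelah's eventual categoricity conjecture for several classes of abstract elementary classes:
classes closed under disjoint copies, classes of modules closed under direct powers or sums, and classes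
whose large members decompose into small pieces. In ZFC, no amalgamation or tameness assumed.
-/

namespace Vale.Agent.Results.P307.EventualCategoricity

open Cardinal Vale.Agent.P307

universe u

theorem result :
    (∀ (L : FirstOrder.Language.{u, u}) [UnaryLanguage L] (K : AEC L),
      K.ClosedCopiesU → K.TransfersAbove K.LS) ∧
    (∀ ρ : Cardinal.{u}, ∃ μ : Cardinal.{u}, 2 ^ ρ < μ ∧ ∀ (R : Type u) [Ring R] (K : ModAEC R),
      K.LS ≤ ρ → (K.ClosedPow ∨ K.ClosedSum) → ∀ κ : Cardinal.{u}, μ ≤ κ → K.Categorical κ →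
      ∀ κ' : Cardinal.{u}, 2 ^ ρ < κ' → K.Categorical κ') ∧
    (∀ (L : FirstOrder.Language.{u, u}) [L.IsRelational] [IsEmpty (L.Relations 0)] (K : AEC L)
      (ρ κ : Cardinal.{u}), K.LS ≤ ρ → 2 ^ ρ < κ → K.Categorical κ →
      (∀ (M : Type u) [L.Structure M], K.Mem M → #M = κ → SmallComponents L ρ M) →
      ∀ κ' : Cardinal.{u}, 2 ^ ρ < κ' →
      (κ' < κ → ∀ (M : Type u) [L.Structure M], K.Mem M → #M = κ' → SmallComponents L ρ M) →
      K.Categorical κ') ∧
    (∀ (R : Type u) [Ring R] (K : ModAEC R) (ρ : Cardinal.{u}), K.LS ≤ ρ →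
      (∀ (M : Type u) [AddCommGroup M] [Module R M], K.Mem M → 2 ^ ρ < #M → SumOfSmall R ρ M) →
      K.TransfersAbove (2 ^ ρ)) ∧
    (∀ (R : Type u) [Ring R] (K : ModAEC R),
      (∀ (M : Type u) [AddCommGroup M] [Module R M], K.Mem M → 2 ^ K.LS < #M →
        Module.Projective R M ∨ IsSemisimpleModule R M ∨
          (IsNoetherianRing R ∧ Module.Injective R M)) →
      K.TransfersAbove (2 ^ K.LS)) ∧
    (∀ (R : Type u) [CommRing R] [IsDomain R] [IsPrincipalIdealRing R] (K : ModAEC R),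
      (∀ (M : Type u) [AddCommGroup M] [Module R M], K.Mem M → 2 ^ K.LS < #M →
        ∃ a : R, a ≠ 0 ∧ ∀ m : M, a • m = 0) →
      K.TransfersAbove (2 ^ K.LS)) := by
  have hmod : ∀ (R : Type u) [Ring R] (K : ModAEC R) (ρ : Cardinal.{u}), K.LS ≤ ρ →
      (∀ (M : Type u) [AddCommGroup M] [Module R M], K.Mem M → 2 ^ ρ < #M → SumOfSmall R ρ M) →
      K.TransfersAbove (2 ^ ρ) := by
    intro R _ K ρ hLS hK κ hκ h κ' hκ'
    refine mainM R ρ ((isLS_LS_mod K).1.trans hLS) K hLS κ κ' hκ hκ' ?_ ?_ h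
    · intro M _ _ hM hMκ
      exact hK M hM (by rw [hMκ]; exact hκ)
    · intro M _ _ hM hMκ
      exact hK M hM (by rw [hMκ]; exact hκ')
  refine ⟨?_, ?_, ?_, hmod, ?_, ?_⟩
  · intro L _ K hK κ hκ h κ' hκ'
    exact closedCopiesU stmtUn L K hK κ κ' hκ hκ' h
  · intro ρ
    obtain ⟨μ, h1, h2⟩ := closedPow_uniform ρ
    exact ⟨μ, h1, fun R _ K hLS hK => h2 R K hLS (hK.elim id (closedPow_of_closedSum K))⟩
  · intro L _ _ K ρ κ hLS hκ h hK κ' hκ' hK'
    have hρ : ℵ₀ ≤ ρ := (isLS_LS K).1.trans hLS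
    refine main2 ρ hρ L ⟨fun n => inferInstance, inferInstance⟩ K hLS κ κ' hκ hκ' hK ?_ h
    rcases le_or_gt κ κ' with hle | hlt
    · intro M _ hM hMκ
      exact small_up K ρ κ hρ hLS (lt_of_le_of_lt (Cardinal.cantor ρ).le hκ) hK M hM
        (by rw [hMκ]; exact hle)
    · exact hK' hlt
  · intro R _ K hK
    refine hmod R K K.LS le_rfl (fun M _ _ hM hc => ?_)
    have h1 := (isLS_LS_mod K).1
    have h2 := (isLS_LS_mod K).2.1
    rcases hK M hM hc with h | h | ⟨h, h'⟩
    · exact stmtKap R K.LS h1 h2 M h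
    · exact stmtSemi R K.LS h1 h2 M h
    · exact stmtInj R K.LS h1 h2 M h'
  · intro R _ _ _ K hK
    exact hmod R K K.LS le_rfl (fun M _ _ hM hc =>
      stmtBdd R K.LS (isLS_LS_mod K).1 (isLS_LS_mod K).2.1 M (hK M hM hc))

end Vale.Agent.Results.P307.EventualCategoricity
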