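import Mathlib
import Vale.Agent.P307.Mods.Final
import Vale.Agent.P307.Mods.Kap
import Vale.Agent.P307.Mods.Semi

/-!
P307: Shelah's eventual categoricity conjecture for abstract elementary classes of modules whose
large members are direct sums of small modules. In ZFC, no amalgamation or tameness assumed.
-/

namespace Vale.Agent.Results.P307.ModuleSums

open Cardinal Vale.Agent.P307

universe u

theorem result :
    (∀ (R : Type u) [Ring R] (K : ModAEC R) (ρ : Cardinal.{u}), K.LS ≤ ρ →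
      (∀ (M : Type u) [AddCommGroup M] [Module R M], K.Mem M → 2 ^ ρ < #M → SumOfSmall R ρ M) →
      ∀ κ : Cardinal.{u}, 2 ^ ρ < κ → K.Categorical κ →
      ∀ κ' : Cardinal.{u}, 2 ^ ρ < κ' → K.Categorical κ') ∧
    (∀ (R : Type u) [Ring R] (K : ModAEC R),
      (∀ (M : Type u) [AddCommGroup M] [Module R M], K.Mem M → 2 ^ K.LS < #M →
        Module.Projective R M) →
      ∀ κ : Cardinal.{u}, 2 ^ K.LS < κ → K.Categorical κ →
      ∀ κ' : Cardinal.{u}, 2 ^ K.LS < κ' → K.Categorical κ') ∧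
    (∀ (R : Type u) [Ring R] (K : ModAEC R),
      (∀ (M : Type u) [AddCommGroup M] [Module R M], K.Mem M → 2 ^ K.LS < #M →
        IsSemisimpleModule R M) →
      ∀ κ : Cardinal.{u}, 2 ^ K.LS < κ → K.Categorical κ →
      ∀ κ' : Cardinal.{u}, 2 ^ K.LS < κ' → K.Categorical κ') := by
  have main : ∀ (R : Type u) [Ring R] (K : ModAEC R) (ρ : Cardinal.{u}), K.LS ≤ ρ →
      (∀ (M : Type u) [AddCommGroup M] [Module R M], K.Mem M → 2 ^ ρ < #M → SumOfSmall R ρ M) →
      ∀ κ : Cardinal.{u}, 2 ^ ρ < κ → K.Categorical κ →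
      ∀ κ' : Cardinal.{u}, 2 ^ ρ < κ' → K.Categorical κ' := by
    intro R _ K ρ hLS hK κ hκ h κ' hκ'
    refine mainM R ρ ((isLS_LS_mod K).1.trans hLS) K hLS κ κ' hκ hκ' ?_ ?_ h
    · intro M _ _ hM hMκ
      exact hK M hM (by rw [hMκ]; exact hκ)
    · intro M _ _ hM hMκ
      exact hK M hM (by rw [hMκ]; exact hκ')
  refine ⟨main, ?_, ?_⟩
  · intro R _ K hK
    exact main R K K.LS le_rfl (fun M _ _ hM hc =>
      stmtKap R K.LS (isLS_LS_mod K).1 (isLS_LS_mod K).2.1 M (hK M hM hc))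
  · intro R _ K hK
    exact main R K K.LS le_rfl (fun M _ _ hM hc =>
      stmtSemi R K.LS (isLS_LS_mod K).1 (isLS_LS_mod K).2.1 M (hK M hM hc))

end Vale.Agent.Results.P307.ModuleSums
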