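import Mathlib
import Vale.Agent.P307.Final

/-!
P307: Shelah's eventual categoricity conjecture for abstract elementary classes all of whose
members are disjoint unions of small substructures. In ZFC, no amalgamation or tameness assumed.
-/

namespace Vale.Agent.Results.P307.SmallComponents

open FirstOrder Cardinal Vale.Agent.P307

universe u

theorem result (ρ : Cardinal.{u}) (hρ : ℵ₀ ≤ ρ) (L : FirstOrder.Language.{u, u})
    (hL : Relational L) (K : AEC L) (hLS : K.LS ≤ ρ)
    (hK : ∀ (M : Type u) [L.Structure M], K.Mem M → SmallComponents L ρ M)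
    (κ : Cardinal.{u}) (hκ : 2 ^ ρ < κ) (h : K.Categorical κ) :
    ∀ κ' : Cardinal.{u}, 2 ^ ρ < κ' → K.Categorical κ' :=
  fun κ' hκ' => main ρ hρ L hL K hLS hK κ κ' hκ hκ' h

end Vale.Agent.Results.P307.SmallComponents
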